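import Vale.Agent.P243.Statement

/-!
# P243, directionwise form: planar areas and coordinates on the planes orthogonal to a direction
-/

open MeasureTheory
open scoped RealInnerProductSpace ENNReal

namespace Vale.Agent.P243.RForm

/-- The points between two affine graphs over an interval. -/
def strip (a b p q r s : ℝ) : Set (ℝ × ℝ) :=
  {z | a ≤ z.1 ∧ z.1 ≤ b ∧ p + q * z.1 ≤ z.2 ∧ z.2 ≤ r + s * z.1}

lemma isClosed_strip (a b p q r s : ℝ) : IsClosed (strip a b p q r s) := by
  simp only [strip, Set.ofPred_and]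
  exact (isClosed_le continuous_const continuous_fst).inter
    ((isClosed_le continuous_fst continuous_const).inter
      ((isClosed_le (by fun_prop) continuous_snd).inter
        (isClosed_le continuous_snd (by fun_prop))))

lemma measurableSet_strip (a b p q r s : ℝ) : MeasurableSet (strip a b p q r s) :=
  (isClosed_strip a b p q r s).measurableSet

lemma volume_strip {a b p q r s : ℝ} (hab : a ≤ b) (ha : p + q * a ≤ r + s * a)
    (hb : p + q * b ≤ r + s * b) :
    volume (strip a b p q r s) =
      ENNReal.ofReal ((r - p) * (b - a) + (s - q) * ((b ^ 2 - a ^ 2) / 2)) := by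
  have hsl : ∀ x : ℝ, volume (Prod.mk x ⁻¹' strip a b p q r s) =
      (Set.Icc a b).indicator (fun x => ENNReal.ofReal ((r - p) + (s - q) * x)) x := by
    intro x
    by_cases hx : x ∈ Set.Icc a b
    · have : Prod.mk x ⁻¹' strip a b p q r s = Set.Icc (p + q * x) (r + s * x) := by
        ext y; simp [strip, hx.1, hx.2]
      rw [this, Real.volume_Icc, Set.indicator_of_mem hx]
      congr 1; ring
    · have : Prod.mk x ⁻¹' strip a b p q r s = ∅ := by
        ext y
        simp only [strip, Set.mem_preimage, Set.mem_ofPred_eq, Set.mem_empty_iff_false, iff_false]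
        exact fun h => hx ⟨h.1, h.2.1⟩
      rw [this, measure_empty, Set.indicator_of_notMem hx]
  rw [Measure.volume_eq_prod, Measure.prod_apply (measurableSet_strip a b p q r s)]
  simp_rw [hsl]
  rw [lintegral_indicator measurableSet_Icc, ← ofReal_integral_eq_lintegral_ofReal]
  · congr 1
    rw [integral_Icc_eq_integral_Ioc, ← intervalIntegral.integral_of_le hab,
      intervalIntegral.integral_add (by fun_prop |> fun h : Continuous (fun _ : ℝ => r - p) =>
        h.intervalIntegrable a b)
        (by fun_prop |> fun h : Continuous (fun x : ℝ => (s - q) * x) => h.intervalIntegrable a b),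
      intervalIntegral.integral_const, intervalIntegral.integral_const_mul, integral_id]
    simp; ring
  · exact (Continuous.continuousOn (by fun_prop)).integrableOn_Icc
  · refine (ae_restrict_mem measurableSet_Icc).mono fun x hx => ?_
    show (0 : ℝ) ≤ (r - p) + (s - q) * x
    rcases hab.eq_or_lt with h | h
    · have : x = a := le_antisymm (h ▸ hx.2) hx.1
      subst this; linarith
    · have h1 := mul_nonneg (sub_nonneg.2 hx.2) (sub_nonneg.2 ha)
      have h2 := mul_nonneg (sub_nonneg.2 hx.1) (sub_nonneg.2 hb)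
      nlinarith

/-- The unit vector in the direction of `u`. -/
noncomputable def unitVec (u : E3) : E3 := ‖u‖⁻¹ • u

lemma norm_unitVec {u : E3} (hu : u ≠ 0) : ‖unitVec u‖ = 1 := norm_smul_inv_norm hu

/-- The base set given by coordinate functionals `a`, `b` and a planar set `S`. -/
def coordBase (u a b : E3) (S : Set (ℝ × ℝ)) : BaseSet (unitVec u) :=
  show Set ↥(planeOf (unitVec u)) from
    {w | ((⟪a, (w : E3)⟫, ⟪b, (w : E3)⟫) : ℝ × ℝ) ∈ S}

/-- Data making `(a, b)` coordinates on the plane orthogonal to `u`. -/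
structure IsCoord (u a b : E3) : Prop where
  ne : u ≠ 0
  ha : ⟪a, u⟫ = 0
  hb : ⟪b, u⟫ = 0
  inj : ∀ w : E3, ⟪a, w⟫ = 0 → ⟪b, w⟫ = 0 → ⟪u, w⟫ = 0 → w = 0

lemma mem_planeOf_iff {u : E3} (hu : u ≠ 0) (w : E3) :
    w ∈ planeOf (unitVec u) ↔ ⟪u, w⟫ = 0 := by
  rw [planeOf, Submodule.mem_orthogonal_singleton_iff_inner_right, unitVec, real_inner_smul_left]
  simp [hu]

lemma inner_unitVec {u a : E3} (ha : ⟪a, u⟫ = 0) : ⟪a, unitVec u⟫ = 0 := by
  rw [unitVec, real_inner_smul_right, ha, mul_zero]

/-- A point lies in the cylinder over a coordinate base as soon as its coordinates do. -/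
lemma mem_cylinderOn_coordBase {u a b x : E3} (h : IsCoord u a b) {S : Set (ℝ × ℝ)}
    (hx : ((⟪a, x⟫, ⟪b, x⟫) : ℝ × ℝ) ∈ S) :
    x ∈ cylinderOn (unitVec u) (coordBase u a b S) := by
  have hn := norm_unitVec h.ne
  have hmem : x - ⟪unitVec u, x⟫ • unitVec u ∈ planeOf (unitVec u) := by
    rw [planeOf, Submodule.mem_orthogonal_singleton_iff_inner_right, inner_sub_right,
      real_inner_smul_right, real_inner_self_eq_norm_sq, hn]
    ring
  refine ⟨⟨_, hmem⟩, ?_, ⟪unitVec u, x⟫, by simp⟩
  show ((⟪a, x - ⟪unitVec u, x⟫ • unitVec u⟫, ⟪b, x - ⟪unitVec u, x⟫ • unitVec u⟫) : ℝ × ℝ) ∈ S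
  simpa [inner_sub_right, real_inner_smul_right, inner_unitVec h.ha, inner_unitVec h.hb] using hx

/-- Areas in coordinates: one constant for all base sets, and shadows contain coordinate images. -/
lemma exists_scale {u a b : E3} (h : IsCoord u a b) :
    ∃ c : ℝ≥0∞, c ≠ 0 ∧ c ≠ ⊤ ∧
      (∀ S : Set (ℝ × ℝ), MeasurableSet S →
        areaOn (unitVec u) (coordBase u a b S) = c * volume S) ∧
      ∀ (K : Set E3) (S : Set (ℝ × ℝ)), MeasurableSet S →
        (∀ z ∈ S, ∃ x ∈ K, (⟪a, x⟫, ⟪b, x⟫) = z) →
          c * volume S ≤ areaOn (unitVec u) (projectionOn (unitVec u) K) := by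
  let P := planeOf (unitVec u)
  let f : P →ₗ[ℝ] ℝ × ℝ :=
    { toFun := fun w => (⟪a, (w : E3)⟫, ⟪b, (w : E3)⟫)
      map_add' := fun x y => by simp [inner_add_right]
      map_smul' := fun t x => by simp [real_inner_smul_right] }
  have hf : Function.Injective f := by
    rw [← LinearMap.ker_eq_bot, Submodule.eq_bot_iff]
    intro w hw
    rw [LinearMap.mem_ker] at hw
    have h1 : ⟪a, (w : E3)⟫ = 0 := congrArg Prod.fst hw
    have h2 : ⟪b, (w : E3)⟫ = 0 := congrArg Prod.snd hw
    exact Subtype.ext (h.inj _ h1 h2 ((mem_planeOf_iff h.ne _).1 w.2))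
  have hdim : Module.finrank ℝ P = Module.finrank ℝ (ℝ × ℝ) := by
    rw [Module.finrank_prod, Module.finrank_self]
    exact Submodule.finrank_orthogonal_span_singleton (n := 2)
      (norm_ne_zero_iff.1 (by rw [norm_unitVec h.ne]; exact one_ne_zero))
  let φ : P ≃L[ℝ] ℝ × ℝ := (LinearEquiv.ofBijective f
    ⟨hf, (LinearMap.injective_iff_surjective_of_finrank_eq_finrank hdim).1 hf⟩).toContinuousLinearEquiv
  have hφ : ∀ w, φ w = f w := fun w => rfl
  let μ : Measure (ℝ × ℝ) := (volume : Measure P).map φ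
  have : μ.IsAddHaarMeasure := ContinuousLinearEquiv.isAddHaarMeasure_map φ volume
  set c : ℝ≥0∞ := ((Measure.addHaarScalarFactor μ (volume : Measure (ℝ × ℝ)) : NNReal) : ℝ≥0∞)
    with hc
  have hμ : ∀ S : Set (ℝ × ℝ), MeasurableSet S →
      areaOn (unitVec u) (coordBase u a b S) = c * volume S := by
    intro S hS
    have h1 : areaOn (unitVec u) (coordBase u a b S) = μ S := by
      rw [Measure.map_apply φ.continuous.measurable hS]
      rfl
    rw [h1, Measure.isAddLeftInvariant_eq_smul μ (volume : Measure (ℝ × ℝ))]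
    rw [Measure.smul_apply, hc]; rfl
  refine ⟨c, ?_, ENNReal.coe_ne_top, hμ, ?_⟩
  · rw [hc, Ne, ENNReal.coe_eq_zero]
    exact (Measure.addHaarScalarFactor_pos_of_isAddHaarMeasure μ _).ne'
  · intro K S hS hK
    rw [← hμ S hS]
    refine measure_mono fun w hw => ?_
    obtain ⟨x, hx, hxw⟩ := hK _ hw
    refine ⟨x, hx, hf ?_⟩
    have hsub : ∀ v : E3, ⟪v, unitVec u⟫ = 0 →
        ⟪v, (P.orthogonalProjectionOnto x : E3)⟫ = ⟪v, x⟫ := by
      intro v hv
      have hvP : v ∈ P := by
        show v ∈ (ℝ ∙ unitVec u)ᗮ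
        rw [Submodule.mem_orthogonal_singleton_iff_inner_left]
        exact hv
      have h0 : ⟪x - P.starProjection x, v⟫ = 0 := P.starProjection_inner_eq_zero x v hvP
      rw [inner_sub_left, sub_eq_zero, real_inner_comm v, real_inner_comm v] at h0
      exact h0.symm
    show f (P.orthogonalProjectionOnto x) = f w
    refine Eq.trans ?_ hxw
    exact Prod.ext (hsub a (inner_unitVec h.ha)) (hsub b (inner_unitVec h.hb))

end Vale.Agent.P243.RForm
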