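import Vale.Agent.P243.RForm.Planar

/-!
# P243, directionwise form: sixteen cylinders covering a regular tetrahedron with `R < 1/2`

The tetrahedron has vertices `(1,1,1)`, `(1,-1,-1)`, `(-1,1,-1)`, `(-1,-1,1)`. The covering is
invariant under the symmetry `(x,y,z) ↦ (-x,z,-y)` of order four, so it is given by five base
cylinders and their images.
-/

open MeasureTheory
open scoped RealInnerProductSpace ENNReal

namespace Vale.Agent.P243.RForm

/-- The vector with the three given coordinates. -/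
noncomputable def vec (x y z : ℝ) : E3 := !₂[x, y, z]

lemma vec_ext {v w : E3} (h0 : v 0 = w 0) (h1 : v 1 = w 1) (h2 : v 2 = w 2) : v = w := by
  ext i; fin_cases i <;> assumption

lemma inner_eq (v w : E3) : ⟪v, w⟫ = v 0 * w 0 + v 1 * w 1 + v 2 * w 2 := by
  simp [PiLp.inner_apply, Fin.sum_univ_three, mul_comm]

@[simp] lemma vec_zero (x y z : ℝ) : vec x y z 0 = x := by simp [vec]
@[simp] lemma vec_one (x y z : ℝ) : vec x y z 1 = y := by simp [vec]
@[simp] lemma vec_two (x y z : ℝ) : vec x y z 2 = z := by simp [vec]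

/-- The regular tetrahedron. -/
def tetra : Set E3 :=
  {p | -p 0 + p 1 + p 2 ≤ 1 ∧ p 0 - p 1 + p 2 ≤ 1 ∧ p 0 + p 1 - p 2 ≤ 1 ∧ -p 0 - p 1 - p 2 ≤ 1}

lemma convex_tetra : Convex ℝ tetra := by
  intro p hp q hq a b ha hb hab
  obtain ⟨p1, p2, p3, p4⟩ := hp
  obtain ⟨q1, q2, q3, q4⟩ := hq
  have e : ∀ i, (a • p + b • q) i = a * p i + b * q i := fun i => by simp
  refine ⟨?_, ?_, ?_, ?_⟩ <;> rw [e, e, e] <;>
  nlinarith [mul_le_mul_of_nonneg_left p1 ha, mul_le_mul_of_nonneg_left p2 ha,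
    mul_le_mul_of_nonneg_left p3 ha, mul_le_mul_of_nonneg_left p4 ha,
    mul_le_mul_of_nonneg_left q1 hb, mul_le_mul_of_nonneg_left q2 hb,
    mul_le_mul_of_nonneg_left q3 hb, mul_le_mul_of_nonneg_left q4 hb]

lemma coord_abs_le {p : E3} (hp : p ∈ tetra) (i : Fin 3) : |p i| ≤ 1 := by
  obtain ⟨h1, h2, h3, h4⟩ := hp
  rw [abs_le]
  fin_cases i <;> constructor <;> simp <;> linarith

lemma isCompact_tetra : IsCompact tetra := by
  refine Metric.isCompact_of_isClosed_isBounded ?_ ?_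
  · simp only [tetra, Set.ofPred_and]
    refine (isClosed_le ?_ continuous_const).inter ((isClosed_le ?_ continuous_const).inter
      ((isClosed_le ?_ continuous_const).inter (isClosed_le ?_ continuous_const))) <;> fun_prop
  · refine (Metric.isBounded_closedBall (x := (0 : E3)) (r := 2)).subset fun p hp => ?_
    rw [mem_closedBall_zero_iff, EuclideanSpace.norm_eq, Real.sqrt_le_iff, Fin.sum_univ_three]
    refine ⟨by norm_num, ?_⟩
    simp only [Real.norm_eq_abs]
    nlinarith [coord_abs_le hp 0, coord_abs_le hp 1, coord_abs_le hp 2, abs_nonneg (p 0),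
      abs_nonneg (p 1), abs_nonneg (p 2)]

lemma interior_tetra : (interior tetra).Nonempty := by
  refine ⟨0, mem_interior.2 ⟨Metric.ball 0 (1 / 3), fun p hp => ?_, Metric.isOpen_ball,
    Metric.mem_ball_self (by norm_num)⟩⟩
  rw [mem_ball_zero_iff] at hp
  have h : ∀ i, |p i| ≤ 1 / 3 := fun i => ((PiLp.norm_apply_le p i).trans hp.le)
  have := abs_le.1 (h 0); have := abs_le.1 (h 1); have := abs_le.1 (h 2)
  refine ⟨?_, ?_, ?_, ?_⟩ <;> linarith

/-- The symmetry of the tetrahedron. -/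
noncomputable def sym (p : E3) : E3 := vec (-p 0) (p 2) (-p 1)

/-- The transposed symmetry, acting on directions and coordinate functionals. -/
noncomputable def rot (p : E3) : E3 := vec (-p 0) (-p 2) (p 1)

lemma inner_rot (a p : E3) : ⟪rot a, p⟫ = ⟪a, sym p⟫ := by
  simp [inner_eq, rot, sym]; ring

lemma rot_sym (p : E3) : rot (sym p) = p := by
  apply vec_ext <;> simp [rot, sym]

lemma sym_rot (p : E3) : sym (rot p) = p := by
  apply vec_ext <;> simp [rot, sym]

lemma sym_mem {p : E3} (hp : p ∈ tetra) : sym p ∈ tetra := by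
  obtain ⟨h1, h2, h3, h4⟩ := hp
  refine ⟨?_, ?_, ?_, ?_⟩ <;> simp [sym] <;> linarith

lemma rot_mem {p : E3} (hp : p ∈ tetra) : rot p ∈ tetra := by
  obtain ⟨h1, h2, h3, h4⟩ := hp
  refine ⟨?_, ?_, ?_, ?_⟩ <;> simp [rot] <;> linarith

lemma isCoord_rot {u a b : E3} (h : IsCoord u a b) : IsCoord (rot u) (rot a) (rot b) := by
  refine ⟨fun h0 => h.ne ?_, ?_, ?_, fun w h1 h2 h3 => ?_⟩
  · have := congrArg sym h0
    rw [sym_rot] at this
    rw [this]; apply vec_ext <;> simp [sym]
  · rw [inner_rot, sym_rot]; exact h.ha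
  · rw [inner_rot, sym_rot]; exact h.hb
  · rw [inner_rot] at h1 h2 h3
    have := h.inj _ h1 h2 h3
    rw [← rot_sym w, this]; apply vec_ext <;> simp [rot]

/-- A base cylinder shape: direction, coordinates, base, and cost bound. -/
structure Shape where
  u : E3
  a : E3
  b : E3
  S : Set (ℝ × ℝ)
  cost : ℝ

/-- Axis direction and coordinates of the cylinders with an edge direction. -/
noncomputable def edgeShape : Shape where
  u := vec 0 1 (-1)
  a := vec 1 0 0
  b := vec 0 1 1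
  S := strip (-1) (-2/3) (-1) (-1) 1 1
  cost := 1/36

/-- The central band. -/
noncomputable def bandShape : Shape where
  u := vec 0 1 (-2)
  a := vec 1 0 0
  b := vec 0 2 1
  S := strip (-2/3) 0 (-7/10) 0 (7/10) 0
  cost := 7/60

/-- The small triangle extending the band. -/
noncomputable def fillShape : Shape where
  u := vec 0 1 (-2)
  a := vec 1 0 0
  b := vec 0 2 1
  S := strip 0 (11/150) (-7/10) 0 (-1/3) (-5)
  cost := 121/72000

/-- The first part of the tilted cylinder. -/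
noncomputable def tiltOne : Shape where
  u := vec 1 (-2) (-1)
  a := vec 1 1 (-1)
  b := vec 0 (-1) 2
  S := strip (61/225) (3/5) (-7/10 + 5/4 * (61/225)) (-5/4) (-7/10) 0
  cost := 1369/162000

/-- The second part of the tilted cylinder. -/
noncomputable def tiltTwo : Shape where
  u := vec 1 (-2) (-1)
  a := vec 1 1 (-1)
  b := vec 0 (-1) 2
  S := strip (3/5) 1 (-1/9) (-5/3) (-7/10) 0
  cost := 67/1800

/-- What is needed from a shape: coordinates, and the ratio of areas. -/
def Shape.Good (s : Shape) : Prop :=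
  IsCoord s.u s.a s.b ∧ MeasurableSet s.S ∧ 0 ≤ s.cost ∧
    ∃ T : Set (ℝ × ℝ), ∃ t : ℝ, MeasurableSet T ∧ 0 < t ∧ volume T = ENNReal.ofReal t ∧
      volume s.S ≤ ENNReal.ofReal (s.cost * t) ∧ ∀ z ∈ T, ∃ x ∈ tetra, (⟪s.a, x⟫, ⟪s.b, x⟫) = z

lemma edge_good : edgeShape.Good := by
  refine ⟨⟨?_, ?_, ?_, fun w h1 h2 h3 => ?_⟩, measurableSet_strip _ _ _ _ _ _,
    by norm_num [edgeShape], strip (-1) 1 (-1) (-1) 1 1, 4, measurableSet_strip _ _ _ _ _ _,
    by norm_num, ?_, ?_, ?_⟩
  · intro h; have := congrArg (fun v : E3 => v 1) h; simp [edgeShape] at this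
  · simp [edgeShape, inner_eq]
  · simp [edgeShape, inner_eq]
  · simp [edgeShape, inner_eq] at h1 h2 h3
    apply vec_ext <;> simp <;> linarith
  · rw [volume_strip (by norm_num) (by norm_num) (by norm_num)]; norm_num
  · rw [edgeShape, volume_strip (by norm_num) (by norm_num) (by norm_num)]; norm_num
  · rintro ⟨x, c⟩ ⟨h1, h2, h3, h4⟩
    dsimp only at h1 h2 h3 h4
    refine ⟨vec x (c / 2) (c / 2), ⟨?_, ?_, ?_, ?_⟩, ?_⟩ <;>
      simp [edgeShape, inner_eq] <;> linarith

lemma band_coord : IsCoord (vec 0 1 (-2)) (vec 1 0 0) (vec 0 2 1) := by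
  refine ⟨?_, ?_, ?_, fun w h1 h2 h3 => ?_⟩
  · intro h; have := congrArg (fun v : E3 => v 1) h; simp at this
  · simp [inner_eq]
  · simp [inner_eq]
  · simp [inner_eq] at h1 h2 h3
    apply vec_ext <;> simp <;> linarith

lemma band_shadow : ∀ z ∈ strip (-1) 1 (-2) (-1) 2 1, ∃ x ∈ tetra,
    ((⟪vec 1 0 0, x⟫, ⟪vec 0 2 1, x⟫) : ℝ × ℝ) = z := by
  rintro ⟨x, c⟩ ⟨h1, h2, h3, h4⟩
  dsimp only at h1 h2 h3 h4
  have hpos : 0 < 2 + x := by linarith
  set l : ℝ := c / (2 + x) with hl
  have hl1 : l ≤ 1 := by rw [hl, div_le_one hpos]; linarith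
  have hl2 : -1 ≤ l := by rw [hl, le_div_iff₀ hpos]; linarith
  have hc : l * (2 + x) = c := by rw [hl, div_mul_cancel₀ _ hpos.ne']
  refine ⟨vec x l (l * x), ⟨?_, ?_, ?_, ?_⟩, ?_⟩
  · simp; nlinarith [mul_nonneg (sub_nonneg.2 hl1) (by linarith : (0 : ℝ) ≤ 1 + x)]
  · simp; nlinarith [mul_nonneg (by linarith : (0 : ℝ) ≤ 1 + l) (by linarith : (0 : ℝ) ≤ 1 - x)]
  · simp; nlinarith [mul_nonneg (sub_nonneg.2 hl1) (by linarith : (0 : ℝ) ≤ 1 - x)]
  · simp; nlinarith [mul_nonneg (by linarith : (0 : ℝ) ≤ 1 + l) (by linarith : (0 : ℝ) ≤ 1 + x)]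
  · simp [inner_eq]; linarith

lemma band_good : bandShape.Good := by
  refine ⟨band_coord, measurableSet_strip _ _ _ _ _ _, by norm_num [bandShape],
    strip (-1) 1 (-2) (-1) 2 1, 8, measurableSet_strip _ _ _ _ _ _, by norm_num, ?_, ?_,
    band_shadow⟩
  · rw [volume_strip (by norm_num) (by norm_num) (by norm_num)]; norm_num
  · rw [bandShape, volume_strip (by norm_num) (by norm_num) (by norm_num)]; norm_num

lemma fill_good : fillShape.Good := by
  refine ⟨band_coord, measurableSet_strip _ _ _ _ _ _, by norm_num [fillShape],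
    strip (-1) 1 (-2) (-1) 2 1, 8, measurableSet_strip _ _ _ _ _ _, by norm_num, ?_, ?_,
    band_shadow⟩
  · rw [volume_strip (by norm_num) (by norm_num) (by norm_num)]; norm_num
  · rw [fillShape, volume_strip (by norm_num) (by norm_num) (by norm_num)]; norm_num

lemma tilt_coord : IsCoord (vec 1 (-2) (-1)) (vec 1 1 (-1)) (vec 0 (-1) 2) := by
  refine ⟨?_, ?_, ?_, fun w h1 h2 h3 => ?_⟩
  · intro h; have := congrArg (fun v : E3 => v 0) h; simp at this
  · simp [inner_eq]; norm_num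
  · simp [inner_eq]
  · simp [inner_eq] at h1 h2 h3
    apply vec_ext <;> simp <;> linarith

lemma tilt_shadow : ∀ z ∈ strip (-3) 1 (-3/2) (-3/2) (3/2) (-1/2), ∃ x ∈ tetra,
    ((⟪vec 1 1 (-1), x⟫, ⟪vec 0 (-1) 2, x⟫) : ℝ × ℝ) = z := by
  rintro ⟨P, B⟩ ⟨h1, h2, h3, h4⟩
  dsimp only at h1 h2 h3 h4
  -- barycentric coordinates in the triangle (1,1), (1,-3), (-3,3)
  set l2 : ℝ := (1 - P) / 4 with hl2
  set l0 : ℝ := (B + 3 / 2 + 3 / 2 * P) / 4 with hl0
  set l1 : ℝ := 1 - l0 - l2 with hl1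
  have e0 : 0 ≤ l0 := by rw [hl0]; linarith
  have e2 : 0 ≤ l2 := by rw [hl2]; linarith
  have e1 : 0 ≤ l1 := by rw [hl1, hl0, hl2]; linarith
  refine ⟨vec (l0 - l1 - l2) (l0 + l1 - l2) (l0 - l1 + l2), ⟨?_, ?_, ?_, ?_⟩, ?_⟩
  · simp; linarith
  · simp; linarith
  · simp; linarith
  · simp; linarith
  · simp [inner_eq]; constructor <;> linarith

lemma tiltOne_good : tiltOne.Good := by
  refine ⟨tilt_coord, measurableSet_strip _ _ _ _ _ _, by norm_num [tiltOne],
    strip (-3) 1 (-3/2) (-3/2) (3/2) (-1/2), 8, measurableSet_strip _ _ _ _ _ _, by norm_num,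
    ?_, ?_, tilt_shadow⟩
  · rw [volume_strip (by norm_num) (by norm_num) (by norm_num)]; norm_num
  · rw [tiltOne, volume_strip (by norm_num) (by norm_num) (by norm_num)]; norm_num

lemma tiltTwo_good : tiltTwo.Good := by
  refine ⟨tilt_coord, measurableSet_strip _ _ _ _ _ _, by norm_num [tiltTwo],
    strip (-3) 1 (-3/2) (-3/2) (3/2) (-1/2), 8, measurableSet_strip _ _ _ _ _ _, by norm_num,
    ?_, ?_, tilt_shadow⟩
  · rw [volume_strip (by norm_num) (by norm_num) (by norm_num)]; norm_num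
  · rw [tiltTwo, volume_strip (by norm_num) (by norm_num) (by norm_num)]; norm_num

/-- The image of a shape under a power of the symmetry. -/
noncomputable def Shape.turn (s : Shape) : ℕ → Shape
  | 0 => s
  | k + 1 => { s.turn k with u := rot (s.turn k).u, a := rot (s.turn k).a, b := rot (s.turn k).b }

lemma good_turn {s : Shape} (h : s.Good) : ∀ k, (s.turn k).Good
  | 0 => h
  | k + 1 => by
    obtain ⟨hc, hS, h0, T, t, hT, ht, hvT, hvS, hsh⟩ := good_turn h k
    refine ⟨isCoord_rot hc, hS, h0, T, t, hT, ht, hvT, hvS, fun z hz => ?_⟩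
    obtain ⟨x, hx, hxz⟩ := hsh z hz
    refine ⟨rot x, rot_mem hx, ?_⟩
    show ((⟪rot (s.turn k).a, rot x⟫, ⟪rot (s.turn k).b, rot x⟫) : ℝ × ℝ) = z
    rw [inner_rot, inner_rot, sym_rot]; exact hxz

/-- A point lies in the cylinder of a shape. -/
def Shape.Has (s : Shape) (p : E3) : Prop := (⟪s.a, p⟫, ⟪s.b, p⟫) ∈ s.S

lemma has_turn_succ (s : Shape) (k : ℕ) (p : E3) :
    (s.turn (k + 1)).Has p ↔ (s.turn k).Has (sym p) := by
  show (⟪rot (s.turn k).a, p⟫, ⟪rot (s.turn k).b, p⟫) ∈ (s.turn k).S ↔ _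
  rw [inner_rot, inner_rot]; rfl

lemma sym_four (p : E3) : sym (sym (sym (sym p))) = p := by
  apply vec_ext <;> simp [sym]

/-- The sixteen cylinders. -/
noncomputable def shapes : Fin 16 → Shape :=
  ![edgeShape.turn 0, edgeShape.turn 1, bandShape.turn 0, bandShape.turn 1,
    fillShape.turn 0, fillShape.turn 1, fillShape.turn 2, fillShape.turn 3,
    tiltOne.turn 0, tiltOne.turn 1, tiltOne.turn 2, tiltOne.turn 3,
    tiltTwo.turn 0, tiltTwo.turn 1, tiltTwo.turn 2, tiltTwo.turn 3]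

lemma shapes_good (i : Fin 16) : (shapes i).Good := by
  fin_cases i
  all_goals first
    | exact good_turn edge_good _
    | exact good_turn band_good _
    | exact good_turn fill_good _
    | exact good_turn tiltOne_good _
    | exact good_turn tiltTwo_good _

/-- In an orbit piece one of four shapes contains the point or its image. -/
lemma corner_cover {p : E3} (hp : p ∈ tetra) (hx0 : 0 ≤ p 0) (hx1 : p 0 ≤ 2 / 3)
    (hb : 7 / 10 ≤ p 1 - 2 * p 2) :
    fillShape.Has p ∨ tiltOne.Has p ∨ tiltTwo.Has p ∨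
      tiltOne.Has (sym (sym (sym p))) ∨ tiltTwo.Has (sym (sym (sym p))) := by
  obtain ⟨h1, h2, h3, h4⟩ := hp
  have tilt : ∀ q : E3, 61 / 225 ≤ q 0 + q 1 - q 2 → q 0 + q 1 - q 2 ≤ 1 →
      -q 1 + 2 * q 2 ≤ -7 / 10 →
      (q 0 + q 1 - q 2 ≤ 3 / 5 →
        -7 / 10 + 5 / 4 * (61 / 225) + -5 / 4 * (q 0 + q 1 - q 2) ≤ -q 1 + 2 * q 2) →
      (3 / 5 ≤ q 0 + q 1 - q 2 →
        -1 / 9 + -5 / 3 * (q 0 + q 1 - q 2) ≤ -q 1 + 2 * q 2) →
      tiltOne.Has q ∨ tiltTwo.Has q := by
    intro q a1 a2 a3 a4 a5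
    rcases le_total (q 0 + q 1 - q 2) (3 / 5) with hP | hP
    · left
      have := a4 hP
      refine ⟨?_, ?_, ?_, ?_⟩ <;> simp [tiltOne, inner_eq] <;> linarith
    · right
      have := a5 hP
      refine ⟨?_, ?_, ?_, ?_⟩ <;> simp [tiltTwo, inner_eq] <;> linarith
  rcases le_total (-1 / 3) (5 * p 0 + 2 * p 1 + p 2) with hA | hA
  · rcases tilt p (by linarith) (by linarith) (by linarith) (fun h => by linarith)
      (fun h => by linarith) with h | h
    · exact Or.inr (Or.inl h)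
    · exact Or.inr (Or.inr (Or.inl h))
  rcases le_total (-7 / 10) (2 * p 1 + p 2) with hC | hC
  · left
    refine ⟨?_, ?_, ?_, ?_⟩ <;> simp [fillShape, inner_eq] <;> linarith
  rcases le_total (5 * p 0 - p 1 + 2 * p 2) (1 / 3) with hM | hM
  · have e0 : sym (sym (sym p)) 0 = -p 0 := by simp [sym]
    have e1 : sym (sym (sym p)) 1 = -p 2 := by simp [sym]
    have e2 : sym (sym (sym p)) 2 = p 1 := by simp [sym]
    rcases tilt (sym (sym (sym p))) (by rw [e0, e1, e2]; linarith) (by rw [e0, e1, e2]; linarith)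
      (by rw [e1, e2]; linarith) (fun h => by rw [e0, e1, e2] at h ⊢; linarith)
      (fun h => by rw [e0, e1, e2] at h ⊢; linarith)
      with h | h
    · exact Or.inr (Or.inr (Or.inr (Or.inl h)))
    · exact Or.inr (Or.inr (Or.inr (Or.inr h)))
  · rcases tilt p (by linarith) (by linarith) (by linarith) (fun h => by linarith)
      (fun h => by linarith) with h | h
    · exact Or.inr (Or.inl h)
    · exact Or.inr (Or.inr (Or.inl h))

lemma shapes_cover {p : E3} (hp : p ∈ tetra) : ∃ i, (shapes i).Has p := by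
  have t1 : ∀ (s : Shape) (q : E3), (s.turn 1).Has q ↔ s.Has (sym q) := fun s q =>
    has_turn_succ s 0 q
  have t2 : ∀ (s : Shape) (q : E3), (s.turn 2).Has q ↔ s.Has (sym (sym q)) := fun s q =>
    (has_turn_succ s 1 q).trans (t1 s _)
  have t3 : ∀ (s : Shape) (q : E3), (s.turn 3).Has q ↔ s.Has (sym (sym (sym q))) := fun s q =>
    (has_turn_succ s 2 q).trans (t2 s _)
  rcases le_total (p 0) (-2 / 3) with hE | hE
  · refine ⟨0, ?_⟩
    show edgeShape.Has p
    obtain ⟨h1, h2, h3, h4⟩ := hp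
    refine ⟨?_, ?_, ?_, ?_⟩ <;> simp [edgeShape, inner_eq] <;> linarith
  rcases le_total (2 / 3) (p 0) with hE' | hE'
  · refine ⟨1, (t1 _ _).2 ?_⟩
    obtain ⟨h1, h2, h3, h4⟩ := hp
    refine ⟨?_, ?_, ?_, ?_⟩ <;> simp [edgeShape, inner_eq, sym] <;> linarith
  -- the four corner pieces
  have corner : ∀ q : E3, q ∈ tetra → 0 ≤ q 0 → q 0 ≤ 2 / 3 → 7 / 10 ≤ q 1 - 2 * q 2 →
      (fillShape.Has q ∨ tiltOne.Has q ∨ tiltTwo.Has q ∨
        tiltOne.Has (sym (sym (sym q))) ∨ tiltTwo.Has (sym (sym (sym q)))) :=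
    fun q a b c d => corner_cover a b c d
  rcases le_total (p 0) 0 with hx | hx
  · rcases le_total (2 * p 1 + p 2) (7 / 10) with hu | hu
    · rcases le_total (-7 / 10) (2 * p 1 + p 2) with hl | hl
      · refine ⟨2, ?_⟩
        show bandShape.Has p
        refine ⟨?_, ?_, ?_, ?_⟩ <;> simp [bandShape, inner_eq] <;> linarith
      · rcases corner (sym (sym (sym p))) (sym_mem (sym_mem (sym_mem hp)))
          (by simp [sym]; linarith) (by simp [sym]; linarith) (by simp [sym]; linarith) with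
          h | h | h | h | h
        · exact ⟨7, (t3 _ _).2 h⟩
        · exact ⟨11, (t3 _ _).2 h⟩
        · exact ⟨15, (t3 _ _).2 h⟩
        · rw [sym_four] at h; exact ⟨10, (t2 _ _).2 h⟩
        · rw [sym_four] at h; exact ⟨14, (t2 _ _).2 h⟩
    · rcases corner (sym p) (sym_mem hp)
        (by simp [sym]; linarith) (by simp [sym]; linarith) (by simp [sym]; linarith) with
        h | h | h | h | h
      · exact ⟨5, (t1 _ _).2 h⟩
      · exact ⟨9, (t1 _ _).2 h⟩
      · exact ⟨13, (t1 _ _).2 h⟩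
      · rw [sym_four] at h; exact ⟨8, h⟩
      · rw [sym_four] at h; exact ⟨12, h⟩
  · rcases le_total (p 1 - 2 * p 2) (7 / 10) with hu | hu
    · rcases le_total (-7 / 10) (p 1 - 2 * p 2) with hl | hl
      · refine ⟨3, (t1 _ _).2 ?_⟩
        refine ⟨?_, ?_, ?_, ?_⟩ <;> simp [bandShape, inner_eq, sym] <;> linarith
      · rcases corner (sym (sym p)) (sym_mem (sym_mem hp))
          (by simp [sym]; linarith) (by simp [sym]; linarith) (by simp [sym]; linarith) with
          h | h | h | h | h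
        · exact ⟨6, (t2 _ _).2 h⟩
        · exact ⟨10, (t2 _ _).2 h⟩
        · exact ⟨14, (t2 _ _).2 h⟩
        · rw [sym_four] at h; exact ⟨9, (t1 _ _).2 h⟩
        · rw [sym_four] at h; exact ⟨13, (t1 _ _).2 h⟩
    · rcases corner p hp hx hE' hu with h | h | h | h | h
      · exact ⟨4, h⟩
      · exact ⟨8, h⟩
      · exact ⟨12, h⟩
      · exact ⟨11, (t3 _ _).2 h⟩
      · exact ⟨15, (t3 _ _).2 h⟩

lemma sum_cost : ∑ i, (shapes i).cost =
    2 * (1 / 36) + 2 * (7 / 60) + 4 * (121 / 72000) + 4 * (1369 / 162000) + 4 * (67 / 1800) := by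
  simp [Fin.sum_univ_succ, shapes, Shape.turn, edgeShape, bandShape, fillShape, tiltOne, tiltTwo]
  norm_num

/-- Some convex body is covered by finitely many cylinders with directionwise relative area at
most `15497/32400`. -/
theorem exists_small_covering :
    ∃ (K : Set E3) (u : Fin 16 → E3) (B : ∀ i, BaseSet (u i)),
      IsCompact K ∧ Convex ℝ K ∧ (interior K).Nonempty ∧ IsCylinderCovering K u B ∧
        (∀ i, MeasurableSet (α := ↥(planeOf (u i))) (B i)) ∧
        (∀ i, areaOn (u i) (projectionOn (u i) K) ≠ 0 ∧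
          areaOn (u i) (projectionOn (u i) K) ≠ ⊤) ∧
        ∑ i, areaOn (u i) (B i) / areaOn (u i) (projectionOn (u i) K) ≤
          ENNReal.ofReal (15497 / 32400) := by
  refine ⟨tetra, fun i => unitVec (shapes i).u,
    fun i => coordBase (shapes i).u (shapes i).a (shapes i).b (shapes i).S,
    isCompact_tetra, convex_tetra, interior_tetra,
    ⟨fun i => norm_unitVec (shapes_good i).1.ne, fun p hp => ?_⟩, fun i => ?_, fun i => ?_, ?_⟩
  · obtain ⟨i, hi⟩ := shapes_cover hp
    exact Set.mem_iUnion.2 ⟨i, mem_cylinderOn_coordBase (shapes_good i).1 hi⟩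
  · exact (Continuous.prodMk (by fun_prop) (by fun_prop)).measurable (shapes_good i).2.1
  · obtain ⟨hc, hS, h0, T, t, hT, ht, hvT, hvS, hsh⟩ := shapes_good i
    obtain ⟨c, hc0, hctop, hcS, hcK⟩ := exists_scale hc
    refine ⟨fun h => ?_, ?_⟩
    · have h' := hcK tetra T hT hsh
      rw [h, nonpos_iff_eq_zero, mul_eq_zero, hvT, ENNReal.ofReal_eq_zero] at h'
      rcases h' with h' | h'
      · exact hc0 h'
      · linarith
    · exact ((isCompact_tetra.image
        (Submodule.orthogonalProjectionOnto _).continuous).measure_lt_top).ne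
  · have hi : ∀ i, areaOn (unitVec (shapes i).u)
        (coordBase (shapes i).u (shapes i).a (shapes i).b (shapes i).S) /
        areaOn (unitVec (shapes i).u) (projectionOn (unitVec (shapes i).u) tetra) ≤
          ENNReal.ofReal (shapes i).cost := by
      intro i
      obtain ⟨hc, hS, h0, T, t, hT, ht, hvT, hvS, hsh⟩ := shapes_good i
      obtain ⟨c, hc0, hctop, hcS, hcK⟩ := exists_scale hc
      refine ENNReal.div_le_of_le_mul ?_
      rw [hcS _ hS]
      calc c * volume (shapes i).S ≤ c * ENNReal.ofReal ((shapes i).cost * t) := by gcongr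
        _ = ENNReal.ofReal (shapes i).cost * (c * volume T) := by
          rw [hvT, ENNReal.ofReal_mul h0]; ring
        _ ≤ _ := by
          have := hcK tetra T hT hsh
          gcongr
    calc _ ≤ ∑ i, ENNReal.ofReal (shapes i).cost := Finset.sum_le_sum fun i _ => hi i
      _ = ENNReal.ofReal (∑ i, (shapes i).cost) :=
        (ENNReal.ofReal_sum_of_nonneg fun i _ => (shapes_good i).2.2.1).symm
      _ ≤ _ := ENNReal.ofReal_le_ofReal (by rw [sum_cost]; norm_num)

end Vale.Agent.P243.RForm
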